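import Vale.Agent.P113.Compiler
import Vale.Agent.P113.CodeCorrect

namespace Vale.Agent.Results.P113.HaltingFlow

open Vale.Agent.P113 Set

/-- Halting of Turing machines is detected by a particle trajectory of a forced Navier-Stokes flow
on the flat three-torus started from rest. One rational point `a`, one rational box with corners
`lo`, `hi`, one time `T₀` and one force compiler `C` serve all viscosities `ν > 0`, all machines
`M` and all inputs `w`. -/
theorem result :
    ∃ a lo hi : Fin 3 → ℚ, (∀ i, lo i < hi i) ∧ ∃ T₀ : ℝ,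
    ∃ C : (M : Machine) → List (Fin (M.nA + 1)) → Fin 3 → List Term, IsAlgorithm C ∧
      (∀ (M : Machine) (w : List (Fin (M.nA + 1))) (l : Fin 3), ∀ τ ∈ C M w l, τ.Ok ∧
        (τ.isPeriodic = false → ∀ ν t : ℝ, T₀ ≤ t → ∀ x, τ.eval ν t x = 0)) ∧
      (∀ (M : Machine) (w w' : List (Fin (M.nA + 1))) (l : Fin 3),
        (C M w l).filter Term.isPeriodic = (C M w' l).filter Term.isPeriodic) ∧
      ∀ ν : ℝ, 0 < ν → ∀ (M : Machine) (w : List (Fin (M.nA + 1))),
        (ContDiff ℝ (⊤ : ℕ∞) fun q : ℝ × E => force ν (C M w) q.1 q.2) ∧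
        (∀ t x i, force ν (C M w) t (x + e i) = force ν (C M w) t x) ∧
        ∃ u : ℝ → E → E, (ContDiff ℝ (⊤ : ℕ∞) fun q : ℝ × E => u q.1 q.2) ∧
          (∀ T > 0, IsClassical ν (force ν (C M w)) T u (fun _ _ => 0) ∧
            ∀ v q, IsClassical ν (force ν (C M w)) T v q →
              ∀ t ∈ Icc 0 T, ∀ x, v t x = u t x ∧ q t x = 0) ∧
          ∃ X : ℝ → E, IsTrajectory u (fun i => (a i : ℝ)) X ∧
            (∀ Y, IsTrajectory u (fun i => (a i : ℝ)) Y → ∀ t ≥ 0, Y t = X t) ∧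
            ((∃ t ≥ (0 : ℝ), ∃ n : Fin 3 → ℤ, ∀ i,
              (lo i : ℝ) < X t i + n i ∧ X t i + n i < (hi i : ℝ)) ↔ M.Halts w) := by
  refine ⟨0, lo, hi, ?_, 1, compile, compile_isAlgorithm, ?_, ?_, ?_⟩
  · intro i
    fin_cases i <;> norm_num [lo, hi]
  · intro M w l τ hτ
    exact ⟨compile_Ok hτ, fun hp ν t ht x => compile_vanish hτ hp ν ht x⟩
  · exact fun M w w' l => compile_periodic M w w' l
  · intro ν hν M w
    have h0 : (fun i => (((0 : Fin 3 → ℚ) i : ℚ) : ℝ)) = (0 : E) := by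
      funext i
      simp
    rw [h0]
    exact main ν hν M w

end Vale.Agent.Results.P113.HaltingFlow
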